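import Vale.Agent.P174.Top

/-! The covering argument of `P174.Cover` along a continuous unitary homotopy. -/

namespace Vale.Agent.P173

open Vale.Agent.P174
open scoped TensorProduct ContDiff Topology
open MeasureTheory Complex

set_option linter.unusedSectionVars false
set_option linter.unusedSimpArgs false

section core
variable {J : Type} [Fintype J] [DecidableEq J] {N : ℕ} {Λ : Type} [Ring Λ] [Algebra ℂ Λ]
  (g : Gr (Option (J × Fin N × Fin N)) Λ)
  {D : Option (J × Fin N × Fin N) → Derivation ℂ (SS J (Fin N)) (SS J (Fin N))}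

theorem cover_core (h : Frame D) {Y : Type} [Fintype Y] [DecidableEq Y]
    (U U' : J → Matrix Y Y (SS J (Fin N))) (hU : ∀ l, U l * U' l = 1)
    (a : Matrix J J ℂ) (ha : a.det ≠ 0)
    (htr : ∀ l k, ((inj.mapMatrix (U' l) * (dE g (del g) D).mapMatrix (inj.mapMatrix (U l))) ^
      (2 * k + 1)).trace = incl (∑ j, a l j • om g j k))
    (F : J × Fin N → Matrix Y Y (SS J (Fin N))) (hFu : ∀ p, IsUnit (F p).det)
    (hv0 : ∀ p x, (evz (x, 0)).mapMatrix (F p) = (evz (x, 0)).mapMatrix (U p.1))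
    (hd0 : ∀ p x a b, ed g D (x, 0) (F p a b) = ed g D (x, 0) (U p.1 a b))
    (hd1 : ∀ x, ∃ p, ∀ a b, ed g D (x, 1) (F p a b) = 0) : False := by
  let θ : J × Fin N → Matrix Y Y (RR J N Λ) := fun p =>
    inj.mapMatrix (F p)⁻¹ * (dE g (del g) D).mapMatrix (inj.mapMatrix (F p))
  have hl := dE_lb g (del_lb g) D
  have hθ : ∀ p k, dE g (del g) D (θ p ^ (2 * k + 1)).trace = 0 := by
    intro p k
    have := maurer (hl.mat (n := Y)) (F := inj.mapMatrix (F p)) (G := inj.mapMatrix (F p)⁻¹)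
      (fun X => by ext a b; exact dE_par g (del_par g) D _) (P_inj g _) (P_inj g _)
      (by rw [← map_mul, Matrix.nonsing_inv_mul _ (hFu p), map_one])
      (by rw [← map_mul, Matrix.mul_nonsing_inv _ (hFu p), map_one])
      (by ext a b; exact h.dd g _)
    exact (g.toSAlg.tens _).closed_odd hl this.1 this.2 k
  obtain ⟨e⟩ : Nonempty (Fin (Fintype.card (J × Fin N)) ≃ J × Fin N) :=
    ⟨(Fintype.equivFin _).symm⟩
  have hS := h.stokes g (hl.prod_closed
    (List.ofFn fun i => (θ (e i) ^ (2 * ((e i).2 : ℕ) + 1)).trace) (by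
      intro x hx
      obtain ⟨i, rfl⟩ := List.mem_ofFn.1 hx
      exact hθ _ _))
  have h1 : ∀ x, evR (x, 1) (List.ofFn fun i =>
      (θ (e i) ^ (2 * ((e i).2 : ℕ) + 1)).trace).prod = 0 := by
    intro x
    obtain ⟨p, hp⟩ := hd1 x
    rw [map_list_prod, List.prod_eq_zero]
    refine List.mem_map.2 ⟨_, List.mem_ofFn.2 ⟨e.symm p, rfl⟩, ?_⟩
    have e1 : (evR (x, 1)).mapMatrix ((dE g (del g) D).mapMatrix (inj.mapMatrix (F p))) = 0 := by
      ext a b
      exact hp a b
    rw [Equiv.apply_symm_apply, alg_trace, map_pow, map_mul, e1]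
    simp
  have h0 : ∀ x, evR (x, 0) (List.ofFn fun i =>
      (θ (e i) ^ (2 * ((e i).2 : ℕ) + 1)).trace).prod =
      (List.ofFn fun i => ∑ j, a (e i).1 j • om g j (e i).2).prod := by
    intro x
    rw [map_list_prod, List.map_ofFn]
    congr 2
    funext i
    have e1 : (evR (x, 0)).mapMatrix ((dE g (del g) D).mapMatrix (inj.mapMatrix (F (e i)))) =
        (evR (x, 0)).mapMatrix ((dE g (del g) D).mapMatrix (inj.mapMatrix (U (e i).1))) := by
      ext a b
      exact hd0 _ x a b
    have e3 : (evz (x, 0)).mapMatrix (F (e i))⁻¹ = (evz (x, 0)).mapMatrix (U' (e i).1) := by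
      have := congrArg (evz (x, 0)).mapMatrix (Matrix.nonsing_inv_mul _ (hFu (e i)))
      rw [map_mul, hv0, map_one] at this
      rw [← mul_one ((evz (x, 0)).mapMatrix (F (e i))⁻¹), ← map_one (evz (x, 0)).mapMatrix,
        ← hU (e i).1, map_mul, ← mul_assoc, this, one_mul]
    have e4 := congrArg (evR (x, 0)) (htr (e i).1 (e i).2)
    rw [incl_apply, evR_tmul, map_one, one_smul, alg_trace, map_pow, map_mul, evR_inj] at e4
    rw [Function.comp_apply, alg_trace, map_pow, map_mul, e1, evR_inj, e3, e4]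
  simp only [h1, h0, mul_zero, map_zero, integral_const, smul_zero] at hS
  have hpos : (Measure.haar : Measure (UX J (Fin N))).real Set.univ ≠ 0 := by
    rw [Ne, measureReal_eq_zero_iff]
    exact (isOpen_univ.measure_pos _ Set.univ_nonempty).ne'
  exact nonvanish g a ha e ((smul_eq_zero.1 hS.symm).resolve_left hpos)

/-- The interpolating matrix. -/
noncomputable def ipl {Y : Type} [Fintype Y] [DecidableEq Y] (t κ : SS J (Fin N)) (c : ℂ)
    (U G : Matrix Y Y (SS J (Fin N))) : Matrix Y Y (SS J (Fin N)) :=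
  (1 - t) • (U + κ • G) - (t * algebraMap ℂ _ c) • 1

lemma evz_ipl {Y : Type} [Fintype Y] [DecidableEq Y] (t κ : SS J (Fin N)) (c : ℂ)
    (U G : Matrix Y Y (SS J (Fin N))) (z : UX J (Fin N) × ℝ) :
    (evz z).mapMatrix (ipl t κ c U G) = (1 - evz z t) • ((evz z).mapMatrix U +
      evz z κ • (evz z).mapMatrix G) - (evz z t * c) • 1 := by
  ext a b
  by_cases hab : a = b <;> simp [ipl, hab]

lemma ed_ipl {Y : Type} [Fintype Y] [DecidableEq Y] (t κ : SS J (Fin N)) (c : ℂ)
    (U G : Matrix Y Y (SS J (Fin N))) (z : UX J (Fin N) × ℝ) (a b : Y) (hz : ed g D z t = 0) :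
    ed g D z (ipl t κ c U G a b) = (1 - evz z t) • (ed g D z (U a b) +
      (evz z κ • ed g D z (G a b) + evz z (G a b) • ed g D z κ)) := by
  have e : ipl t κ c U G a b = (1 - t) * (U a b + κ * G a b) -
      t * algebraMap ℂ _ (if a = b then c else 0) := by
    by_cases hab : a = b <;> simp [ipl, hab, mul_add]
  rw [e, map_sub, ed_mul, ed_mul, map_sub (ed g D z), map_add (ed g D z), ed_mul, hz, ed_one,
    ed_alg, map_sub, map_one]
  simp only [sub_self, smul_zero, add_zero, sub_zero]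

end core

/-- The smooth clock. -/
noncomputable def clk (s : ℝ) : unitInterval :=
  ⟨Real.smoothTransition s, Real.smoothTransition.nonneg s, Real.smoothTransition.le_one s⟩

section approx
variable {J n : Type} [Fintype J] [DecidableEq J] [Fintype n] [DecidableEq n]

lemma sv_im (z : UX J n × ℝ) : ((sv : SS J n).1 z).im = 0 := ofReal_im _

variable (J n) in
/-- Real functions that become smooth after the time change. -/
def apA : Subalgebra ℝ C(UX J n × unitInterval, ℝ) where
  carrier := {f | Sm (gens J n) fun z => (f (z.1, clk z.2) : ℂ)}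
  mul_mem' {f f'} hf hf' := by
    have := Sm.mul hf hf'
    refine (congrArg (Sm (gens J n)) ?_).mp this
    funext z
    simp
  add_mem' {f f'} hf hf' := by
    have := Sm.add hf hf'
    refine (congrArg (Sm (gens J n)) ?_).mp this
    funext z
    simp
  algebraMap_mem' c := Sm.const (c : ℂ)

lemma apA_sep : (apA J n).SeparatesPoints := by
  intro x y hxy
  have hc : ∀ j a b, Continuous fun z : UX J n × unitInterval => (z.1 j : Matrix n n ℂ) a b :=
    fun j a b => (continuous_subtype_val.comp ((continuous_apply j).comp continuous_fst)).matrix_elem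
      a b
  by_cases h : x.2 = y.2
  · have h1 : ∃ j a b, (x.1 j : Matrix n n ℂ) a b ≠ (y.1 j : Matrix n n ℂ) a b := by
      by_contra h1
      push Not at h1
      exact hxy (Prod.ext (funext fun j => Subtype.ext (Matrix.ext (h1 j))) h)
    obtain ⟨j, a, b, h1⟩ := h1
    by_cases h2 : ((x.1 j : Matrix n n ℂ) a b).re = ((y.1 j : Matrix n n ℂ) a b).re
    · refine ⟨_, ⟨⟨fun z => ((z.1 j : Matrix n n ℂ) a b).im, continuous_im.comp (hc j a b)⟩, ?_,
        rfl⟩, fun h3 => h1 (Complex.ext h2 h3)⟩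
      have := (((-I / 2 : ℂ) • (Mm j a b - Mp j b a) : SS J n)).2
      refine (congrArg (Sm (gens J n)) ?_).mp this
      funext z
      change (-I / 2) * ((z.1 j : Matrix n n ℂ) a b - star ((z.1 j : Matrix n n ℂ) a b)) =
        (((z.1 j : Matrix n n ℂ) a b).im : ℂ)
      rw [RCLike.star_def, Complex.sub_conj]
      push_cast
      linear_combination (-(((z.1 j : Matrix n n ℂ) a b).im : ℂ)) * I_mul_I
    · refine ⟨_, ⟨⟨fun z => ((z.1 j : Matrix n n ℂ) a b).re, continuous_re.comp (hc j a b)⟩, ?_,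
        rfl⟩, h2⟩
      have := (((1 / 2 : ℂ) • (Mm j a b + Mp j b a) : SS J n)).2
      refine (congrArg (Sm (gens J n)) ?_).mp this
      funext z
      change (1 / 2) * ((z.1 j : Matrix n n ℂ) a b + star ((z.1 j : Matrix n n ℂ) a b)) =
        (((z.1 j : Matrix n n ℂ) a b).re : ℂ)
      rw [RCLike.star_def, Complex.add_conj]
      push_cast
      ring
  · refine ⟨_, ⟨⟨fun z => z.2, by fun_prop⟩, ?_, rfl⟩, fun h3 => h (Subtype.ext h3)⟩
    exact (cmp Real.smoothTransition Real.smoothTransition.contDiff sv sv_im).2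

lemma approx_real (f : UX J n × unitInterval → ℝ) (hf : Continuous f) {η : ℝ} (hη : 0 < η) :
    ∃ u : SS J n, (∀ z, (u.1 z).im = 0) ∧ ∀ z, |(evz z u).re - f (z.1, clk z.2)| < η := by
  obtain ⟨u, hu⟩ := ContinuousMap.exists_mem_subalgebra_near_continuous_of_separatesPoints
    (apA J n) apA_sep f hf η hη
  exact ⟨⟨_, u.2⟩, fun z => ofReal_im _, fun z => hu _⟩

lemma approx_cplx (f : UX J n × unitInterval → ℂ) (hf : Continuous f) {η : ℝ} (hη : 0 < η) :
    ∃ u : SS J n, ∀ z, ‖evz z u - f (z.1, clk z.2)‖ < η := by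
  obtain ⟨u, hu, hu'⟩ := approx_real (fun z => (f z).re) (continuous_re.comp hf) (half_pos hη)
  obtain ⟨v, hv, hv'⟩ := approx_real (fun z => (f z).im) (continuous_im.comp hf) (half_pos hη)
  refine ⟨u + I • v, fun z => (Complex.norm_le_abs_re_add_abs_im _).trans_lt ?_⟩
  have h1 : (evz z u).im = 0 := hu z
  have h2 : (evz z v).im = 0 := hv z
  have h3 := hu' z
  have h4 := hv' z
  simp only [map_add, map_smul, smul_eq_mul, sub_re, add_re, mul_re, I_re, I_im, zero_mul, h1, h2,
    mul_zero, sub_im, add_im, mul_im, one_mul, zero_add, sub_zero, add_zero]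
  linarith

end approx

lemma exists_delta {X P : Type*} [TopologicalSpace X] [CompactSpace X] (d : P → X → ℝ)
    (hd : ∀ p, Continuous (d p)) (h : ∀ x, ∃ p, 0 < d p x) : ∃ δ, 0 < δ ∧ ∀ x, ∃ p, δ ≤ d p x := by
  have := isCompact_univ.eventually_forall_of_forall_eventually (x₀ := (0 : ℝ))
    (P := fun δ x => ∃ p, δ ≤ d p x) fun x _ => by
      obtain ⟨p, hp⟩ := h x
      have h1 : IsOpen {z : ℝ × X | z.1 < d p z.2} :=
        isOpen_lt continuous_fst ((hd p).comp continuous_snd)
      filter_upwards [h1.mem_nhds (show ((0 : ℝ), x) ∈ _ from hp)] with z hz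
      exact ⟨p, hz.le⟩
  obtain ⟨δ, h1, h2⟩ := ((this.filter_mono (nhdsWithin_le_nhds (s := Set.Ioi 0))).and
    self_mem_nhdsWithin).exists
  exact ⟨δ, h2, fun x => h1 x trivial⟩

lemma exists_eta {Y : Type} [Fintype Y] [DecidableEq Y] {R : Type} [Finite R] (ζ : R → ℂ)
    (hζ : ∀ r, star (ζ r) * ζ r = 1) {δ : ℝ} (hδ : 0 < δ) : ∃ η : ℝ, 0 < η ∧
      ∀ r (V E : Matrix Y Y ℂ) (t : ℝ), star V * V = 1 → 0 ≤ t → t ≤ 1 →
        (t = 0 ∨ δ ≤ normSq (V - ζ r • (1 : Matrix Y Y ℂ)).det) → (∀ a b, ‖E a b‖ < η) →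
        ((1 - t : ℂ) • (V + E) - ((t : ℂ) * ζ r) • (1 : Matrix Y Y ℂ)).det ≠ 0 := by
  have key : ∀ r, ∀ᶠ E : Y → Y → ℂ in 𝓝 0, ∀ k ∈ {k : unitary (Matrix Y Y ℂ) × ℝ |
      k.2 ∈ Set.Icc (0 : ℝ) 1 ∧ (k.2 = 0 ∨ δ ≤ normSq (k.1.1 - ζ r • (1 : Matrix Y Y ℂ)).det)},
      ((1 - k.2 : ℂ) • (k.1.1 + Matrix.of E) - ((k.2 : ℂ) * ζ r) • (1 : Matrix Y Y ℂ)).det ≠ 0 := by
    intro r
    refine IsCompact.eventually_forall_of_forall_eventually ?_ fun k hk => ?_
    · refine (isCompact_univ.prod (isCompact_Icc (a := (0 : ℝ)) (b := 1))).of_isClosed_subset ?_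
        fun k hk => ⟨trivial, hk.1⟩
      have h1 : IsClosed {k : unitary (Matrix Y Y ℂ) × ℝ |
          δ ≤ normSq (k.1.1 - ζ r • (1 : Matrix Y Y ℂ)).det} :=
        isClosed_le continuous_const (continuous_normSq.comp (Continuous.matrix_det (by fun_prop)))
      exact (isClosed_Icc.preimage continuous_snd).inter (IsClosed.union
        (isClosed_eq continuous_snd continuous_const) h1)
    · have hc : Continuous fun z : (Y → Y → ℂ) × unitary (Matrix Y Y ℂ) × ℝ =>
          ((1 - z.2.2 : ℂ) • (z.2.1.1 + Matrix.of z.1) -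
            ((z.2.2 : ℂ) * ζ r) • (1 : Matrix Y Y ℂ)).det := by
        have h1 : Continuous fun z : (Y → Y → ℂ) × unitary (Matrix Y Y ℂ) × ℝ =>
            (Matrix.of z.1 : Matrix Y Y ℂ) := continuous_fst
        exact Continuous.matrix_det (by fun_prop)
      refine hc.continuousAt.eventually_ne fun h0 => ?_
      simp only [Matrix.of_zero, add_zero] at h0
      obtain ⟨h1, h2⟩ := det_eq_zero_of k.1.2.1 (hζ r) h0
      rcases hk.2 with h3 | h3
      · rw [h3] at h1; norm_num at h1
      · rw [h2, map_zero] at h3; exact absurd h3 (not_le.2 hδ)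
  obtain ⟨η, hη, h⟩ := Metric.eventually_nhds_iff.1 (Filter.eventually_all.2 key)
  refine ⟨η, hη, fun r V E t hV h0 h1 h2 h3 => ?_⟩
  exact h (y := E) ((dist_pi_lt_iff hη).2 fun a => (dist_pi_lt_iff hη).2 fun b => by
    simpa using h3 a b) r (⟨V, hV, mul_eq_one_comm.1 hV⟩, t) ⟨⟨h0, h1⟩, h2⟩

lemma deriv_st_comp {k : ℝ → ℝ} {y : ℝ}
    (h : Real.smoothTransition (k y) = 0 ∨ Real.smoothTransition (k y) = 1) :
    deriv (fun y => Real.smoothTransition (k y)) y = 0 := by
  rcases h with h | h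
  · refine IsLocalMin.deriv_eq_zero (Filter.Eventually.of_forall fun x => ?_)
    simp only [h]
    exact Real.smoothTransition.nonneg _
  · refine IsLocalMax.deriv_eq_zero (Filter.Eventually.of_forall fun x => ?_)
    simp only [h]
    exact Real.smoothTransition.le_one _

theorem cover_homotopy {J : Type} [Fintype J] [DecidableEq J] {N : ℕ} {Λ : Type} [Ring Λ]
    [Algebra ℂ Λ] (g : Gr (Option (J × Fin N × Fin N)) Λ)
    {D : Option (J × Fin N × Fin N) → Derivation ℂ (SS J (Fin N)) (SS J (Fin N))} (h : Frame D)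
    {Y : Type} [Fintype Y] [DecidableEq Y]
    (U U' : J → Matrix Y Y (SS J (Fin N))) (hU : ∀ l, U l * U' l = 1)
    (hst : ∀ l z, (evz z).mapMatrix (U' l) = star ((evz z).mapMatrix (U l)))
    (htime : ∀ l x s, (evz (x, s)).mapMatrix (U l) = (evz (x, 0)).mapMatrix (U l))
    (a : Matrix J J ℂ) (ha : a.det ≠ 0)
    (htr : ∀ l k, ((inj.mapMatrix (U' l) * (dE g (del g) D).mapMatrix (inj.mapMatrix (U l))) ^
      (2 * k + 1)).trace = incl (∑ j, a l j • om g j k))
    (H : J → UX J (Fin N) × unitInterval → Matrix Y Y ℂ) (hH : ∀ l, Continuous (H l))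
    (hHu : ∀ l z, star (H l z) * H l z = 1)
    (hH0 : ∀ l x, H l (x, 0) = (evz (x, 0)).mapMatrix (U l))
    (ζ : Fin N → ℂ) (hζ : ∀ r, star (ζ r) * ζ r = 1) :
    ∃ x, ∀ l r, (H l (x, 1) - ζ r • (1 : Matrix Y Y ℂ)).det = 0 := by
  by_contra hc
  push Not at hc
  let d : J × Fin N → UX J (Fin N) → ℝ := fun p x =>
    normSq (H p.1 (x, 1) - ζ p.2 • (1 : Matrix Y Y ℂ)).det
  have hd : ∀ p, Continuous (d p) := fun p =>
    continuous_normSq.comp (Continuous.matrix_det
      (((hH p.1).comp (Continuous.prodMk_left 1)).sub continuous_const))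
  obtain ⟨δ₀, hδ₀, hδ'⟩ := exists_delta d hd fun x => by
    obtain ⟨l, r, hlr⟩ := hc x
    exact ⟨(l, r), normSq_pos.2 hlr⟩
  obtain ⟨δ, rfl⟩ : ∃ δ, δ₀ = 4 * δ := ⟨δ₀ / 4, by ring⟩
  have hδ : 0 < δ := by linarith
  obtain ⟨η, hη, hη'⟩ := exists_eta (Y := Y) ζ hζ hδ
  choose u hui hu using fun p => approx_real (fun z => d p z.1) ((hd p).comp continuous_fst) hδ
  let τ : unitInterval → unitInterval := fun s => Set.projIcc 0 1 zero_le_one (3 * s - 1)
  have hτ : Continuous τ := continuous_projIcc.comp (by fun_prop)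
  choose G hG using fun l a b => approx_cplx
    (fun z : UX J (Fin N) × unitInterval => (H l (z.1, τ z.2) - H l (z.1, 0)) a b)
    (Continuous.matrix_elem (((hH l).comp (by fun_prop)).sub ((hH l).comp (by fun_prop))) a b) hη
  have hst' := Real.smoothTransition.contDiff (n := ⊤)
  have k1 : ContDiff ℝ ∞ fun y : ℝ => Real.smoothTransition (y / δ - 2) :=
    hst'.comp ((contDiff_id.div_const δ).sub contDiff_const)
  have k2 : ContDiff ℝ ∞ fun y : ℝ => Real.smoothTransition (3 * Real.smoothTransition y) :=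
    hst'.comp (contDiff_const.mul hst')
  have k3 : ContDiff ℝ ∞ fun y : ℝ => Real.smoothTransition (3 * Real.smoothTransition y - 2) :=
    hst'.comp ((contDiff_const.mul hst').sub contDiff_const)
  let χ : J × Fin N → SS J (Fin N) := fun p => cmp _ k1 (u p) (hui p)
  let κ : SS J (Fin N) := cmp _ k2 sv sv_im
  let ψ : SS J (Fin N) := cmp _ k3 sv sv_im
  let t : J × Fin N → SS J (Fin N) := fun p => ψ * χ p
  let F : J × Fin N → Matrix Y Y (SS J (Fin N)) := fun p =>
    ipl (t p) κ (ζ p.2) (U p.1) (Matrix.of (G p.1))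
  have hχ : ∀ p z, evz z (χ p) = (Real.smoothTransition ((evz z (u p)).re / δ - 2) : ℝ) :=
    fun p z => rfl
  have hκ : ∀ z, evz z κ = (Real.smoothTransition (3 * Real.smoothTransition z.2) : ℝ) :=
    fun z => rfl
  have hψ : ∀ z, evz z ψ = (Real.smoothTransition (3 * Real.smoothTransition z.2 - 2) : ℝ) :=
    fun z => rfl
  have hF : ∀ p z, (evz z).mapMatrix (F p) = (1 - evz z (t p)) • ((evz z).mapMatrix (U p.1) +
      evz z κ • (evz z).mapMatrix (Matrix.of (G p.1))) - (evz z (t p) * ζ p.2) • 1 :=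
    fun p z => evz_ipl _ _ _ _ _ z
  have hed : ∀ p z a b, ed g D z (t p) = 0 → ed g D z (F p a b) =
      (1 - evz z (t p)) • (ed g D z (U p.1 a b) + (evz z κ • ed g D z (G p.1 a b) +
        evz z (G p.1 a b) • ed g D z κ)) :=
    fun p z a b hz => ed_ipl g _ _ _ _ _ z a b hz
  have hsv : ∀ z : UX J (Fin N) × ℝ, (evz z sv).re = z.2 := fun z => rfl
  have s0 := Real.smoothTransition.zero
  have s1 := Real.smoothTransition.one
  have hψ0 : ∀ x, evz (x, 0) ψ = 0 := fun x => by
    rw [hψ, s0, Real.smoothTransition.zero_of_nonpos (by norm_num), ofReal_zero]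
  have hκ0 : ∀ x, evz (x, 0) κ = 0 := fun x => by
    rw [hκ, s0, mul_zero, s0, ofReal_zero]
  have ht0 : ∀ p x, evz (x, 0) (t p) = 0 := fun p x => by
    simp only [t, map_mul, hψ0, zero_mul]
  refine cover_core g h U U' hU a ha htr F (fun p => ?_) (fun p x => ?_) (fun p x a b => ?_)
    fun x => ?_
  · refine SS_isUnit _ fun z => ?_
    rw [AlgHom.map_det, hF]
    have ht : evz z (t p) = (Real.smoothTransition (3 * Real.smoothTransition z.2 - 2) *
        Real.smoothTransition ((evz z (u p)).re / δ - 2) : ℝ) := by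
      simp only [t, map_mul, hχ, hψ, ofReal_mul]
    have e : (evz z).mapMatrix (U p.1) + evz z κ • (evz z).mapMatrix (Matrix.of (G p.1)) =
        H p.1 (z.1, τ (clk z.2)) + (H p.1 (z.1, 0) + evz z κ • (evz z).mapMatrix (Matrix.of (G p.1))
          - H p.1 (z.1, τ (clk z.2))) := by
      rw [hH0, ← htime p.1 z.1 z.2]
      abel
    rw [ht, e]
    have n1 := Real.smoothTransition.nonneg
    have n2 := Real.smoothTransition.le_one
    refine hη' _ _ _ _ (hHu _ _) (mul_nonneg (n1 _) (n1 _)) (mul_le_one₀ (n2 _) (n1 _) (n2 _)) ?_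
      fun a b => ?_
    · by_cases c1 : 3 * Real.smoothTransition z.2 - 2 ≤ 0
      · left; rw [Real.smoothTransition.zero_of_nonpos c1, zero_mul]
      by_cases c2 : (evz z (u p)).re / δ - 2 ≤ 0
      · left; rw [Real.smoothTransition.zero_of_nonpos c2, mul_zero]
      right
      have e1 : τ (clk z.2) = 1 := Set.projIcc_of_right_le _ (by
        change 1 ≤ 3 * Real.smoothTransition z.2 - 1
        linarith)
      rw [e1]
      have h1 := (abs_lt.1 (hu p z)).2
      rw [not_le, sub_pos, lt_div_iff₀ hδ] at c2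
      change δ ≤ d p z.1
      linarith
    · have h1 := hG p.1 a b z
      change ‖H p.1 (z.1, 0) a b + evz z κ * evz z (G p.1 a b) - H p.1 (z.1, τ (clk z.2)) a b‖ < η
      change ‖evz z (G p.1 a b) - (H p.1 (z.1, τ (clk z.2)) a b - H p.1 (z.1, 0) a b)‖ < η at h1
      by_cases c1 : 1 ≤ 3 * Real.smoothTransition z.2
      · rw [hκ, Real.smoothTransition.one_of_one_le c1, ofReal_one, one_mul]
        convert h1 using 2
        ring
      · have e1 : τ (clk z.2) = 0 := Set.projIcc_of_le_left _ (by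
          change 3 * Real.smoothTransition z.2 - 1 ≤ 0
          linarith)
        rw [e1] at h1 ⊢
        rw [sub_self, sub_zero] at h1
        rw [add_sub_cancel_left, norm_mul, hκ, Complex.norm_real, Real.norm_of_nonneg (n1 _)]
        exact (mul_le_of_le_one_left (norm_nonneg _) (n2 _)).trans_lt h1
  · rw [hF, ht0, hκ0]
    simp
  · have e1 : ed g D (x, 0) ψ = 0 := by
      simp only [ψ, h.ed_cmp, hsv]
      rw [deriv_st_comp (Or.inl (by
        rw [s0, Real.smoothTransition.zero_of_nonpos (by norm_num)]))]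
      simp
    have e2 : ed g D (x, 0) κ = 0 := by
      simp only [κ, h.ed_cmp, hsv]
      rw [deriv_st_comp (Or.inl (by rw [s0, mul_zero, s0]))]
      simp
    rw [hed p _ a b (by simp only [t, ed_mul, e1, hψ0, zero_smul, smul_zero, add_zero]), ht0, hκ0,
      e2]
    simp
  · obtain ⟨p, hp⟩ := hδ' x
    have e0 : Real.smoothTransition ((evz (x, 1) (u p)).re / δ - 2) = 1 := by
      refine Real.smoothTransition.one_of_one_le ?_
      have h1 := (abs_lt.1 (hu p (x, 1))).1
      rw [le_sub_iff_add_le, le_div_iff₀ hδ]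
      simp only at h1
      linarith
    have e0' : Real.smoothTransition (3 * Real.smoothTransition 1 - 2) = 1 := by
      rw [s1, Real.smoothTransition.one_of_one_le (by norm_num)]
    have e1 : ed g D (x, 1) ψ = 0 := by
      simp only [ψ, h.ed_cmp, hsv]
      rw [deriv_st_comp (k := fun y => 3 * Real.smoothTransition y - 2) (Or.inr e0')]
      simp
    have e2 : ed g D (x, 1) (χ p) = 0 := by
      simp only [χ, h.ed_cmp]
      rw [deriv_st_comp (k := fun y => y / δ - 2) (Or.inr e0)]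
      simp
    have e3 : evz (x, 1) (t p) = 1 := by
      simp only [t, map_mul, hχ, hψ, e0, e0', ofReal_one, mul_one]
    refine ⟨p, fun a b => ?_⟩
    rw [hed p _ a b (by simp only [t, ed_mul, e1, e2, smul_zero, add_zero]), e3, sub_self,
      zero_smul]

end Vale.Agent.P173
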