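import Vale.Agent.P173.DegA
import Vale.Agent.P173.BasicC

/-! The degree theorem for nonsingular word maps on unitary groups. -/

namespace Vale.Agent.P173

open Vale.Agent.P174
open scoped Matrix

set_option linter.unusedSimpArgs false

/-- Choose a value according to an optional letter. -/
def pk {J α : Type*} (x y : J → α) (z : α) : Option (J × Bool) → α
  | some (j, true) => x j
  | some (j, false) => y j
  | none => z

lemma prod_pk {J G : Type*} [Group G] (f : J → G) : ∀ (ω : List (J × Bool)) (L : ℕ),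
    ω.length ≤ L → ((List.range L).map fun k => pk f (fun j => (f j)⁻¹) 1 ω[k]?).prod =
      FreeGroup.lift f (FreeGroup.mk ω)
  | [], L, _ => by
    rw [FreeGroup.lift_mk]
    refine List.prod_eq_one fun x hx => ?_
    obtain ⟨k, -, rfl⟩ := List.mem_map.1 hx
    rfl
  | a :: ω, 0, h => by simp at h
  | a :: ω, L + 1, h => by
    have := prod_pk f ω L (by simpa using h)
    rw [FreeGroup.lift_mk] at this ⊢
    rw [List.range_succ_eq_map, List.map_cons, List.map_map, List.prod_cons, List.map_cons,
      List.prod_cons, ← this]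
    obtain ⟨j, _ | _⟩ := a <;> rfl

lemma sum_pk {J : Type*} (f : J → ℂ) (w : FreeGroup J) [DecidableEq J] {L : ℕ}
    (h : w.toWord.length ≤ L) :
    ∑ k ∈ Finset.range L, pk f (fun j => -f j) 0 w.toWord[k]? = pair f w := by
  have := congrArg Multiplicative.toAdd
    (prod_pk (fun j => Multiplicative.ofAdd (f j)) w.toWord L h)
  rw [FreeGroup.mk_toWord, toAdd_list_sum, List.map_map] at this
  rw [pair, ← this, ← List.sum_toFinset _ List.nodup_range, List.toFinset_range]
  refine Finset.sum_congr rfl fun k _ => ?_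
  rw [Function.comp_apply]
  rcases w.toWord[k]? with _ | ⟨j, _ | _⟩ <;> rfl

lemma cyc_fixed {N L : ℕ} (G : ℕ → unitary (Matrix (Fin N) (Fin N) ℂ))
    (V : Matrix ((Fin N × ZMod (L + 1)) ⊕ Empty) (Fin N) ℂ) (h1 : Vᴴ * V = 1)
    (h2 : (Equiv.Perm.permMatrix ℂ (Equiv.sumCongr (Equiv.prodCongr (Equiv.refl _)
      (Equiv.addRight 1)) (Equiv.refl _))) * bd Empty (fun b : ZMod (L + 1) => (G b.val).1) 1 * V
        = V) : ((List.range (L + 1)).map G).prod = 1 := by
  let W : ZMod (L + 1) → Matrix (Fin N) (Fin N) ℂ := fun b => Matrix.of fun r c => V (.inl (r, b)) c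
  have hW : ∀ b, W b = (G (b + 1).val).1 * W (b + 1) := by
    intro b
    ext r c
    have := congrFun (congrFun h2 (.inl (r, b))) c
    rw [Matrix.mul_assoc, PEquiv.toMatrix_toPEquiv_mul] at this
    change V _ c = _
    rw [← this]
    simp [Matrix.mul_apply, bd, Fintype.sum_prod_type, Matrix.blockDiagonal_apply, W]
  have hk : ∀ k ≤ L, W (-1) = (((List.range (k + 1)).map G).prod).1 * W k := by
    intro k hk
    induction k with
    | zero => rw [hW]; simp
    | succ k ih =>
      rw [ih (by omega), hW k, List.range_succ (n := k + 1), List.map_append, List.prod_append,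
        ← Nat.cast_succ, ZMod.val_cast_of_lt (by omega)]
      simp [mul_assoc]
  have hL : ((L : ℕ) : ZMod (L + 1)) = -1 := by
    rw [eq_neg_iff_add_eq_zero, ← Nat.cast_succ, ZMod.natCast_self]
  have hsq : ∀ b, (W b)ᴴ * W b = (W (-1))ᴴ * W (-1) := by
    intro b
    rw [hk b.val (Nat.lt_succ_iff.1 (ZMod.val_lt b)), ZMod.natCast_zmod_val, Matrix.conjTranspose_mul,
      Matrix.mul_assoc, ← Matrix.mul_assoc _ _ (W b), ← Matrix.star_eq_conjTranspose (Subtype.val _),
      (((List.range (b.val + 1)).map G).prod).2.1, one_mul]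
  have hsum : ∑ b, (W b)ᴴ * W b = 1 := by
    rw [← h1]
    ext c c'
    simp only [Matrix.sum_apply, Matrix.mul_apply, Matrix.conjTranspose_apply, W, Matrix.of_apply,
      Fintype.sum_sum_type, Fintype.sum_prod_type, Finset.univ_eq_empty, Finset.sum_empty, add_zero]
    exact Finset.sum_comm
  simp only [hsq, Finset.sum_const, ← smul_mul_assoc] at hsum
  have h3 := hk L le_rfl
  rw [hL] at h3
  apply Subtype.ext
  have h4 := congrArg (· * ((Finset.univ : Finset (ZMod (L + 1))).card • (W (-1))ᴴ)) h3
  simp only [mul_assoc, mul_eq_one_comm.1 hsum, mul_one] at h4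
  exact h4.symm

lemma continuous_liftB {X J G : Type*} [TopologicalSpace X] [Group G] [TopologicalSpace G]
    [IsTopologicalGroup G] {f : X → J → G} (hf : ∀ j, Continuous fun x => f x j) (w : FreeGroup J) :
    Continuous fun x => FreeGroup.lift (f x) w := by
  induction w using FreeGroup.induction_on with
  | C1 => simpa using continuous_const
  | of j => simpa using hf j
  | inv_of j ih => simp only [map_inv]; exact ih.inv
  | mul a b iha ihb => simp only [map_mul]; exact iha.mul ihb

theorem deg_aux (N m : ℕ) (w : Fin m → FreeGroup (Fin m))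
    (hw : (Matrix.of fun l j => pair (Pi.single j (1 : ℝ) : Fin m → ℝ) (w l)).det ≠ 0)
    (H : (Fin m → unitary (Matrix (Fin N) (Fin N) ℂ)) × unitInterval →
      Fin m → unitary (Matrix (Fin N) (Fin N) ℂ)) (hH : Continuous H)
    (hH0 : ∀ x l, H (x, 0) l = FreeGroup.lift x (w l)) : ∃ x, ∀ l, H (x, 1) l = 1 := by
  obtain ⟨D, h⟩ := exists_frame (Fin m) N
  set g := exG (Option (Fin m × Fin N × Fin N))
  obtain ⟨L, hL⟩ : ∃ L, ∀ l, (w l).toWord.length ≤ L :=
    ⟨Finset.univ.sup fun l => (w l).toWord.length, fun l =>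
      Finset.le_sup (f := fun l => (w l).toWord.length) (Finset.mem_univ l)⟩
  let e : Fin m → ℕ → Option (Fin m × Bool) := fun l k => (w l).toWord[k]?
  have heL : ∀ l, e l L = none := fun l => List.getElem?_eq_none (hL l)
  let σ : Equiv.Perm ((Fin N × ZMod (L + 1)) ⊕ Empty) :=
    Equiv.sumCongr (Equiv.prodCongr (Equiv.refl _) (Equiv.addRight 1)) (Equiv.refl _)
  let A : Matrix _ _ ℂ := σ.permMatrix ℂ
  have hA : star A * A = 1 := by
    rw [Matrix.star_eq_conjTranspose, Matrix.conjTranspose_permMatrix, ← Matrix.permMatrix_mul,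
      mul_inv_cancel, Matrix.permMatrix_one]
  let P : Fin m → ZMod (L + 1) → Matrix (Fin N) (Fin N) (SS (Fin m) (Fin N)) := fun l b =>
    pk Mm Mp 1 (e l b.val)
  let Q : Fin m → ZMod (L + 1) → Matrix (Fin N) (Fin N) (SS (Fin m) (Fin N)) := fun l b =>
    pk Mp Mm 1 (e l b.val)
  let U : Fin m → Matrix _ _ (SS (Fin m) (Fin N)) := fun l => cM A * bd Empty (P l) 1
  let U' : Fin m → Matrix _ _ (SS (Fin m) (Fin N)) := fun l => bd Empty (Q l) 1 * cM (star A)
  let lt : UX (Fin m) (Fin N) → Fin m → ℕ → unitary (Matrix (Fin N) (Fin N) ℂ) := fun x l k =>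
    pk x (fun j => (x j)⁻¹) 1 (e l k)
  let G : UX (Fin m) (Fin N) × unitInterval → Fin m → ℕ → unitary (Matrix (Fin N) (Fin N) ℂ) :=
    fun z l k => if k = L then (FreeGroup.lift z.1 (w l))⁻¹ * H z l else lt z.1 l k
  have hG0 : ∀ x l k, G (x, 0) l k = lt x l k := by
    intro x l k
    simp only [G]
    split_ifs with hk
    · simp only [hH0, inv_mul_cancel, lt, hk, heL, pk]
    · rfl
  have hGc : ∀ l k, Continuous fun z => G z l k := by
    intro l k
    simp only [G]
    split_ifs with hk
    · exact (continuous_liftB (fun j => by fun_prop) _).inv.mul ((continuous_apply l).comp hH)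
    · simp only [lt]
      rcases e l k with _ | ⟨j, _ | _⟩ <;> simp only [pk] <;> fun_prop
  have hPQ : ∀ l b, P l b * Q l b = 1 := by
    intro l b
    simp only [P, Q]
    rcases e l b.val with _ | ⟨j, _ | _⟩ <;> simp [pk, Mp_Mm, Mm_Mp]
  have hU : ∀ l, U l * U' l = 1 := by
    intro l
    simp only [U, U']
    rw [mul_assoc, ← mul_assoc (bd _ _ _), bd_mul]
    simp only [hPQ, mul_one, bd_one, one_mul, ← map_mul, mul_eq_one_comm.1 hA, map_one]
  have hev : ∀ l z, (evz z).mapMatrix (U l) =
      A * bd Empty (fun b : ZMod (L + 1) => (lt z.1 l b.val).1) 1 := by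
    intro l z
    simp only [U]
    rw [map_mul, evz_cM, AlgHom.mapMatrix_apply, bd_map _ _ _ (map_zero _), map_one]
    congr 2
    funext b
    simp only [P, lt]
    rcases e l b.val with _ | ⟨j, _ | _⟩
    · simp [pk]
    · exact evz_Mp _ _
    · exact evz_Mm _ _
  have hst : ∀ l z, (evz z).mapMatrix (U' l) = star ((evz z).mapMatrix (U l)) := by
    intro l z
    rw [hev, star_mul, bd_star, star_one]
    simp only [U']
    rw [map_mul, evz_cM, AlgHom.mapMatrix_apply, bd_map _ _ _ (map_zero _), map_one]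
    congr 2
    funext b
    simp only [Q, lt]
    rcases e l b.val with _ | ⟨j, _ | _⟩
    · simp [pk]
    · exact (evz_Mm _ _).trans (star_star _).symm
    · exact evz_Mp _ _
  have hl := dE_lb g (del_lb g) D
  let H' : Fin m → UX (Fin m) (Fin N) × unitInterval → Matrix _ _ ℂ := fun l z =>
    A * bd Empty (fun b : ZMod (L + 1) => (G z l b.val).1) 1
  have hH' : ∀ l, Continuous (H' l) := by
    intro l
    refine continuous_const.matrix_mul (Continuous.matrix_fromBlocks
      (Continuous.matrix_blockDiagonal (continuous_pi fun b => ?_)) continuous_const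
      continuous_const continuous_const)
    exact continuous_subtype_val.comp (hGc l _)
  have hHu : ∀ l z, star (H' l z) * H' l z = 1 := by
    intro l z
    simp only [H']
    rw [star_mul, mul_assoc, ← mul_assoc (star A), hA, one_mul, bd_star, bd_mul]
    simp only [Unitary.coe_star_mul_self, star_one, mul_one, bd_one]
  let a : Matrix (Fin m) (Fin m) ℂ := Matrix.of fun l j => -pair (Pi.single j 1) (w l)
  have ha : a.det ≠ 0 := by
    have : a = -(Complex.ofRealHom.mapMatrix
        (Matrix.of fun l j => pair (Pi.single j (1 : ℝ) : Fin m → ℝ) (w l))) := by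
      ext l j
      have := pair_hom Complex.ofRealHom.toAddMonoidHom (Pi.single j (1 : ℝ) : Fin m → ℝ) (w l)
      change -_ = -(Complex.ofRealHom.toAddMonoidHom _)
      rw [Matrix.of_apply, this]
      congr 2
      funext i
      by_cases hij : i = j <;> simp [hij]
    rw [this, Matrix.det_neg, ← RingHom.map_det]
    exact mul_ne_zero (pow_ne_zero _ (by norm_num)) (Complex.ofReal_ne_zero.2 hw)
  obtain ⟨x, hx⟩ := limit_fixed (X := UX (Fin m) (Fin N)) (N := N) (fun l x => H' l (x, 1))
    (fun l => (hH' l).comp (Continuous.prodMk_left 1)) (fun l x => hHu l _) fun ζ hζ => by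
    refine cover_homotopy g h U U' hU hst (fun l x s => by rw [hev, hev]) a ha (fun l k => ?_)
      H' hH' hHu (fun l x => by simp only [H', hev, hG0]) ζ hζ
    have e1 : (dE g (del g) D).mapMatrix (inj.mapMatrix (cM A)) = 0 := by
      ext a b
      exact (congrArg _ ((inj : _ →ₐ[ℂ] RR (Fin m) N _).commutes (A a b))).trans (hl.alg _)
    simp only [U, U']
    rw [map_mul, map_mul, hl.mat, e1, P_inj, zero_mul, zero_add, mul_assoc, ← mul_assoc
      (inj.mapMatrix (cM _)), ← map_mul, ← map_mul, hA, map_one, map_one, one_mul,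
      AlgHom.mapMatrix_apply, AlgHom.mapMatrix_apply, LinearMap.mapMatrix_apply,
      bd_map _ _ _ (map_zero _), bd_map _ _ _ (map_zero _), bd_map _ _ _ (map_zero _), map_one,
      hl.one, bd_mul, bd_pow, mul_zero, zero_pow (by omega), bd_trace]
    have e3 : ∀ j, a l j = ∑ b : ZMod (L + 1),
        -pk (Pi.single j (1 : ℂ) : Fin m → ℂ) (fun i => -(Pi.single j (1 : ℂ) : Fin m → ℂ) i) 0
          (e l b.val) := by
      intro j
      rw [Finset.sum_neg_distrib]
      change -_ = _
      rw [← sum_pk _ _ ((hL l).trans (Nat.le_succ L)), Finset.sum_range]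
      rfl
    simp only [e3, Finset.sum_smul]
    rw [Finset.sum_comm, map_sum]
    refine Finset.sum_congr rfl fun b _ => ?_
    rw [← AlgHom.mapMatrix_apply, ← AlgHom.mapMatrix_apply, ← LinearMap.mapMatrix_apply]
    have e2 : ∀ j, incl (om g j k) =
        ((incl.mapMatrix (xi g j) : Matrix _ _ (RR (Fin m) N _)) ^ (2 * k + 1)).trace := by
      intro j
      rw [om, alg_trace, map_pow]
    simp only [P, Q]
    rcases e l b.val with _ | ⟨j, _ | _⟩
    · simp [pk, hl.mat.one]
    · simp only [pk, neg_neg, Pi.single_apply, ite_smul, one_smul, zero_smul, Finset.sum_ite_eq,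
        Finset.mem_univ, if_true]
      rw [h.dMp, ← mul_assoc, ← map_mul, Mm_Mp, map_one, one_mul, e2]
    · simp only [pk, neg_smul, Finset.sum_neg_distrib, Pi.single_apply, ite_smul, one_smul,
        zero_smul, Finset.sum_ite_eq, Finset.mem_univ, if_true]
      rw [h.dMm, map_neg, e2]
      exact (g.toSAlg.tens _).tr_conj_neg (P_inj g _) (by rw [← map_mul, Mp_Mm, map_one])
        (by rw [← map_mul, Mm_Mp, map_one]) _ k
  refine ⟨x, fun l => ?_⟩
  obtain ⟨V, h1, h2⟩ := hx l
  have h3 := cyc_fixed (G (x, 1) l) V h1 h2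
  have h4 : (List.range L).map (G (x, 1) l) = (List.range L).map (lt x l) :=
    List.map_congr_left fun k hk => if_neg (List.mem_range.1 hk).ne
  have h5 := prod_pk x (w l).toWord L (hL l)
  rw [FreeGroup.mk_toWord] at h5
  rw [List.range_succ, List.map_append, List.prod_append, h4, h5] at h3
  simpa [G] using h3

open scoped Matrix.Norms.L2Operator

theorem deg (N : ℕ) : Deg (Matrix (Fin N) (Fin N) ℂ) := fun m w hw H hH hH0 =>
  deg_aux N m w hw H hH hH0

end Vale.Agent.P173
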