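import Vale.Agent.P173.DefsL

/-! The barycentric subdivision of the two-skeleton of the Poincare sphere: cohomology. -/

namespace Vale.Agent.P173

/-- The edges. -/
def eList : List (Fin 21 × Fin 21) :=
  [(0, 5), (0, 6), (0, 7), (0, 8), (0, 15), (0, 16), (0, 17), (0, 18), (0, 19), (0, 20), (1, 5),
  (1, 9), (1, 10), (1, 11), (1, 15), (1, 16), (1, 17), (1, 18), (1, 19), (1, 20), (2, 6),
  (2, 9), (2, 12), (2, 13), (2, 15), (2, 16), (2, 17), (2, 18), (2, 19), (2, 20), (3, 7),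
  (3, 10), (3, 12), (3, 14), (3, 15), (3, 16), (3, 17), (3, 18), (3, 19), (3, 20), (4, 8),
  (4, 11), (4, 13), (4, 14), (4, 15), (4, 16), (4, 17), (4, 18), (4, 19), (4, 20), (5, 15),
  (5, 16), (5, 17), (6, 16), (6, 18), (6, 19), (7, 17), (7, 18), (7, 20), (8, 15), (8, 19),
  (8, 20), (9, 15), (9, 18), (9, 20), (10, 16), (10, 19), (10, 20), (11, 17), (11, 18),
  (11, 19), (12, 15), (12, 17), (12, 19), (13, 16), (13, 17), (13, 20), (14, 15), (14, 16),
  (14, 18)]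

/-- The triangles. -/
def tList : List (Fin 21 × Fin 21 × Fin 21) :=
  [(0, 5, 15), (0, 5, 16), (0, 5, 17), (0, 6, 16), (0, 6, 18), (0, 6, 19), (0, 7, 17),
  (0, 7, 18), (0, 7, 20), (0, 8, 15), (0, 8, 19), (0, 8, 20), (1, 5, 15), (1, 5, 16),
  (1, 5, 17), (1, 9, 15), (1, 9, 18), (1, 9, 20), (1, 10, 16), (1, 10, 19), (1, 10, 20),
  (1, 11, 17), (1, 11, 18), (1, 11, 19), (2, 6, 16), (2, 6, 18), (2, 6, 19), (2, 9, 15),
  (2, 9, 18), (2, 9, 20), (2, 12, 15), (2, 12, 17), (2, 12, 19), (2, 13, 16), (2, 13, 17),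
  (2, 13, 20), (3, 7, 17), (3, 7, 18), (3, 7, 20), (3, 10, 16), (3, 10, 19), (3, 10, 20),
  (3, 12, 15), (3, 12, 17), (3, 12, 19), (3, 14, 15), (3, 14, 16), (3, 14, 18), (4, 8, 15),
  (4, 8, 19), (4, 8, 20), (4, 11, 17), (4, 11, 18), (4, 11, 19), (4, 13, 16), (4, 13, 17),
  (4, 13, 20), (4, 14, 15), (4, 14, 16), (4, 14, 18)]

set_option maxHeartbeats 1000000 in
theorem h1_list (c : Fin 21 → Fin 21 → ℝ)
    (h : ∀ τ ∈ tList, c τ.1 τ.2.1 + c τ.2.1 τ.2.2 = c τ.1 τ.2.2) :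
    ∃ k : Fin 21 → ℝ, ∀ e ∈ eList, c e.1 e.2 = k e.2 - k e.1 := by
  simp only [tList, List.forall_mem_cons] at h
  obtain ⟨h0, h1, h2, h3, h4, h5, h6, h7, h8, h9, h10, h11, h12, h13, h14, h15, h16, h17, h18, h19,
    h20, h21, h22, h23, h24, h25, h26, h27, h28, h29, h30, h31, h32, h33, h34, h35, h36, h37,
    h38, h39, h40, h41, h42, h43, h44, h45, h46, h47, h48, h49, h50, h51, h52, h53, h54, h55,
    h56, h57, h58, h59, -⟩ := h
  refine ⟨fun v => ([0, (0 + c 0 5 - c 1 5), (0 + c 0 6 - c 2 6), (0 + c 0 7 - c 3 7), (0 + c 0 8 - c 4 8),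
    (0 + c 0 5), (0 + c 0 6), (0 + c 0 7), (0 + c 0 8), (0 + c 0 15 - c 9 15),
    (0 + c 0 16 - c 10 16), (0 + c 0 17 - c 11 17), (0 + c 0 15 - c 12 15),
    (0 + c 0 16 - c 13 16), (0 + c 0 15 - c 14 15), (0 + c 0 15), (0 + c 0 16), (0 + c 0 17),
    (0 + c 0 18), (0 + c 0 19), (0 + c 0 20)] : List ℝ).getD v 0, ?_⟩
  simp only [eList, List.forall_mem_cons]
  refine ⟨?_, ?_, ?_, ?_, ?_, ?_, ?_, ?_, ?_, ?_, ?_, ?_, ?_, ?_, ?_, ?_, ?_, ?_, ?_, ?_, ?_, ?_, ?_,
    ?_, ?_, ?_, ?_, ?_, ?_, ?_, ?_, ?_, ?_, ?_, ?_, ?_, ?_, ?_, ?_, ?_, ?_, ?_, ?_, ?_, ?_, ?_,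
    ?_, ?_, ?_, ?_, ?_, ?_, ?_, ?_, ?_, ?_, ?_, ?_, ?_, ?_, ?_, ?_, ?_, ?_, ?_, ?_, ?_, ?_, ?_,
    ?_, ?_, ?_, ?_, ?_, ?_, ?_, ?_, ?_, ?_, ?_, by simp⟩
  · change c 0 5 = (0 + c 0 5) - 0
    ring
  · change c 0 6 = (0 + c 0 6) - 0
    ring
  · change c 0 7 = (0 + c 0 7) - 0
    ring
  · change c 0 8 = (0 + c 0 8) - 0
    ring
  · change c 0 15 = (0 + c 0 15) - 0
    ring
  · change c 0 16 = (0 + c 0 16) - 0
    ring
  · change c 0 17 = (0 + c 0 17) - 0
    ring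
  · change c 0 18 = (0 + c 0 18) - 0
    ring
  · change c 0 19 = (0 + c 0 19) - 0
    ring
  · change c 0 20 = (0 + c 0 20) - 0
    ring
  · change c 1 5 = (0 + c 0 5) - (0 + c 0 5 - c 1 5)
    ring
  · change c 1 9 = (0 + c 0 15 - c 9 15) - (0 + c 0 5 - c 1 5)
    linear_combination 0 * h0
      + (1) * h0 + (-1) * h12 + (1) * h15
  · change c 1 10 = (0 + c 0 16 - c 10 16) - (0 + c 0 5 - c 1 5)
    linear_combination 0 * h0
      + (1) * h1 + (-1) * h13 + (1) * h18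
  · change c 1 11 = (0 + c 0 17 - c 11 17) - (0 + c 0 5 - c 1 5)
    linear_combination 0 * h0
      + (1) * h2 + (-1) * h14 + (1) * h21
  · change c 1 15 = (0 + c 0 15) - (0 + c 0 5 - c 1 5)
    linear_combination 0 * h0
      + (1) * h0 + (-1) * h12
  · change c 1 16 = (0 + c 0 16) - (0 + c 0 5 - c 1 5)
    linear_combination 0 * h0
      + (1) * h1 + (-1) * h13
  · change c 1 17 = (0 + c 0 17) - (0 + c 0 5 - c 1 5)
    linear_combination 0 * h0
      + (1) * h2 + (-1) * h14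
  · change c 1 18 = (0 + c 0 18) - (0 + c 0 5 - c 1 5)
    linear_combination 0 * h0
      + (1) * h2 + (1) * h4 + (-1) * h5 + (-1) * h6 + (1) * h8 + (1) * h10 + (-1) * h11
      + (-1) * h14 + (-1) * h16 + (1) * h17 + (1) * h19 + (-1) * h20 + (1) * h21 + (-1) * h23
      + (-1) * h25 + (1) * h26 + (1) * h28 + (-1) * h29 + (1) * h31 + (-1) * h32 + (-1) * h34
      + (1) * h35 + (1) * h36 + (-1) * h38 + (-1) * h40 + (1) * h41 + (-1) * h43 + (1) * h44
      + (-1) * h49 + (1) * h50 + (-1) * h51 + (1) * h53 + (1) * h55 + (-1) * h56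
  · change c 1 19 = (0 + c 0 19) - (0 + c 0 5 - c 1 5)
    linear_combination 0 * h0
      + (1) * h1 + (-1) * h3 + (1) * h4 + (-1) * h7 + (1) * h8 + (1) * h10 + (-1) * h11
      + (-1) * h13 + (-1) * h16 + (1) * h17 + (1) * h18 + (-1) * h20 + (1) * h22 + (-1) * h23
      + (1) * h24 + (-1) * h25 + (1) * h28 + (-1) * h29 + (-1) * h33 + (1) * h35 + (1) * h37
      + (-1) * h38 + (-1) * h39 + (1) * h41 + (1) * h46 + (-1) * h47 + (-1) * h49 + (1) * h50
      + (-1) * h52 + (1) * h53 + (1) * h54 + (-1) * h56 + (-1) * h58 + (1) * h59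
  · change c 1 20 = (0 + c 0 20) - (0 + c 0 5 - c 1 5)
    linear_combination 0 * h0
      + (1) * h0 + (1) * h4 + (-1) * h5 + (-1) * h7 + (1) * h8 + (-1) * h9 + (1) * h10
      + (-1) * h12 + (1) * h15 + (-1) * h16 + (1) * h19 + (-1) * h20 + (1) * h22 + (-1) * h23
      + (-1) * h25 + (1) * h26 + (-1) * h27 + (1) * h28 + (1) * h30 + (-1) * h32 + (1) * h37
      + (-1) * h38 + (-1) * h40 + (1) * h41 + (-1) * h42 + (1) * h44 + (1) * h45 + (-1) * h47
      + (1) * h48 + (-1) * h49 + (-1) * h52 + (1) * h53 + (-1) * h57 + (1) * h59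
  · change c 2 6 = (0 + c 0 6) - (0 + c 0 6 - c 2 6)
    ring
  · change c 2 9 = (0 + c 0 15 - c 9 15) - (0 + c 0 6 - c 2 6)
    linear_combination 0 * h0
      + (1) * h0 + (-1) * h2 + (1) * h5 + (1) * h6 + (-1) * h8 + (-1) * h10 + (1) * h11
      + (-1) * h12 + (1) * h14 + (1) * h15 + (-1) * h17 + (-1) * h19 + (1) * h20 + (-1) * h21
      + (1) * h23 + (-1) * h26 + (1) * h29 + (-1) * h31 + (1) * h32 + (1) * h34 + (-1) * h35
      + (-1) * h36 + (1) * h38 + (1) * h40 + (-1) * h41 + (1) * h43 + (-1) * h44 + (1) * h49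
      + (-1) * h50 + (1) * h51 + (-1) * h53 + (-1) * h55 + (1) * h56
  · change c 2 12 = (0 + c 0 15 - c 12 15) - (0 + c 0 6 - c 2 6)
    linear_combination 0 * h0
      + (1) * h0 + (-1) * h2 + (1) * h5 + (1) * h6 + (-1) * h8 + (-1) * h10 + (1) * h11
      + (-1) * h12 + (1) * h14 + (1) * h15 + (-1) * h17 + (-1) * h19 + (1) * h20 + (-1) * h21
      + (1) * h23 + (-1) * h26 + (-1) * h27 + (1) * h29 + (1) * h30 + (-1) * h31 + (1) * h32
      + (1) * h34 + (-1) * h35 + (-1) * h36 + (1) * h38 + (1) * h40 + (-1) * h41 + (1) * h43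
      + (-1) * h44 + (1) * h49 + (-1) * h50 + (1) * h51 + (-1) * h53 + (-1) * h55 + (1) * h56
  · change c 2 13 = (0 + c 0 16 - c 13 16) - (0 + c 0 6 - c 2 6)
    linear_combination 0 * h0
      + (1) * h3 + (-1) * h24 + (1) * h33
  · change c 2 15 = (0 + c 0 15) - (0 + c 0 6 - c 2 6)
    linear_combination 0 * h0
      + (1) * h0 + (-1) * h2 + (1) * h5 + (1) * h6 + (-1) * h8 + (-1) * h10 + (1) * h11
      + (-1) * h12 + (1) * h14 + (1) * h15 + (-1) * h17 + (-1) * h19 + (1) * h20 + (-1) * h21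
      + (1) * h23 + (-1) * h26 + (-1) * h27 + (1) * h29 + (-1) * h31 + (1) * h32 + (1) * h34
      + (-1) * h35 + (-1) * h36 + (1) * h38 + (1) * h40 + (-1) * h41 + (1) * h43 + (-1) * h44
      + (1) * h49 + (-1) * h50 + (1) * h51 + (-1) * h53 + (-1) * h55 + (1) * h56
  · change c 2 16 = (0 + c 0 16) - (0 + c 0 6 - c 2 6)
    linear_combination 0 * h0
      + (1) * h3 + (-1) * h24
  · change c 2 17 = (0 + c 0 17) - (0 + c 0 6 - c 2 6)
    linear_combination 0 * h0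
      + (1) * h0 + (-1) * h1 + (1) * h3 + (1) * h6 + (-1) * h8 + (-1) * h9 + (1) * h11
      + (-1) * h12 + (1) * h13 + (1) * h15 + (-1) * h17 + (-1) * h18 + (1) * h20 + (-1) * h24
      + (-1) * h27 + (1) * h29 + (1) * h30 + (-1) * h31 + (1) * h33 + (-1) * h35 + (-1) * h36
      + (1) * h38 + (1) * h39 + (-1) * h41 + (-1) * h42 + (1) * h43 + (1) * h45 + (-1) * h46
      + (1) * h48 + (-1) * h50 + (-1) * h54 + (1) * h56 + (-1) * h57 + (1) * h58
  · change c 2 18 = (0 + c 0 18) - (0 + c 0 6 - c 2 6)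
    linear_combination 0 * h0
      + (1) * h4 + (-1) * h25
  · change c 2 19 = (0 + c 0 19) - (0 + c 0 6 - c 2 6)
    linear_combination 0 * h0
      + (1) * h5 + (-1) * h26
  · change c 2 20 = (0 + c 0 20) - (0 + c 0 6 - c 2 6)
    linear_combination 0 * h0
      + (1) * h0 + (-1) * h2 + (1) * h4 + (1) * h6 + (-1) * h7 + (-1) * h9 + (1) * h11
      + (-1) * h12 + (1) * h14 + (1) * h15 + (-1) * h16 + (-1) * h21 + (1) * h22 + (-1) * h25
      + (-1) * h27 + (1) * h28 + (1) * h30 + (-1) * h31 + (1) * h34 + (-1) * h35 + (-1) * h36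
      + (1) * h37 + (-1) * h42 + (1) * h43 + (1) * h45 + (-1) * h47 + (1) * h48 + (-1) * h50
      + (1) * h51 + (-1) * h52 + (-1) * h55 + (1) * h56 + (-1) * h57 + (1) * h59
  · change c 3 7 = (0 + c 0 7) - (0 + c 0 7 - c 3 7)
    ring
  · change c 3 10 = (0 + c 0 16 - c 10 16) - (0 + c 0 7 - c 3 7)
    linear_combination 0 * h0
      + (-1) * h0 + (1) * h1 + (-1) * h4 + (1) * h5 + (1) * h7 + (1) * h9 + (-1) * h10
      + (1) * h12 + (-1) * h13 + (-1) * h15 + (1) * h16 + (1) * h18 + (-1) * h19 + (-1) * h22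
      + (1) * h23 + (1) * h25 + (-1) * h26 + (1) * h27 + (-1) * h28 + (-1) * h30 + (1) * h32
      + (-1) * h37 + (1) * h40 + (1) * h42 + (-1) * h44 + (-1) * h45 + (1) * h47 + (-1) * h48
      + (1) * h49 + (1) * h52 + (-1) * h53 + (1) * h57 + (-1) * h59
  · change c 3 12 = (0 + c 0 15 - c 12 15) - (0 + c 0 7 - c 3 7)
    linear_combination 0 * h0
      + (1) * h1 + (-1) * h2 + (-1) * h3 + (1) * h5 + (1) * h6 + (1) * h9 + (-1) * h10
      + (-1) * h13 + (1) * h14 + (1) * h18 + (-1) * h19 + (-1) * h21 + (1) * h23 + (1) * h24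
      + (-1) * h26 + (-1) * h31 + (1) * h32 + (-1) * h33 + (1) * h34 + (-1) * h36 + (-1) * h39
      + (1) * h40 + (1) * h42 + (1) * h43 + (-1) * h44 + (-1) * h45 + (1) * h46 + (-1) * h48
      + (1) * h49 + (1) * h51 + (-1) * h53 + (1) * h54 + (-1) * h55 + (1) * h57 + (-1) * h58
  · change c 3 14 = (0 + c 0 15 - c 14 15) - (0 + c 0 7 - c 3 7)
    linear_combination 0 * h0
      + (1) * h1 + (-1) * h2 + (-1) * h3 + (1) * h5 + (1) * h6 + (1) * h9 + (-1) * h10
      + (-1) * h13 + (1) * h14 + (1) * h18 + (-1) * h19 + (-1) * h21 + (1) * h23 + (1) * h24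
      + (-1) * h26 + (-1) * h31 + (1) * h32 + (-1) * h33 + (1) * h34 + (-1) * h36 + (-1) * h39
      + (1) * h40 + (1) * h43 + (-1) * h44 + (1) * h46 + (-1) * h48 + (1) * h49 + (1) * h51
      + (-1) * h53 + (1) * h54 + (-1) * h55 + (1) * h57 + (-1) * h58
  · change c 3 15 = (0 + c 0 15) - (0 + c 0 7 - c 3 7)
    linear_combination 0 * h0
      + (1) * h1 + (-1) * h2 + (-1) * h3 + (1) * h5 + (1) * h6 + (1) * h9 + (-1) * h10
      + (-1) * h13 + (1) * h14 + (1) * h18 + (-1) * h19 + (-1) * h21 + (1) * h23 + (1) * h24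
      + (-1) * h26 + (-1) * h31 + (1) * h32 + (-1) * h33 + (1) * h34 + (-1) * h36 + (-1) * h39
      + (1) * h40 + (1) * h43 + (-1) * h44 + (-1) * h45 + (1) * h46 + (-1) * h48 + (1) * h49
      + (1) * h51 + (-1) * h53 + (1) * h54 + (-1) * h55 + (1) * h57 + (-1) * h58
  · change c 3 16 = (0 + c 0 16) - (0 + c 0 7 - c 3 7)
    linear_combination 0 * h0
      + (-1) * h0 + (1) * h1 + (-1) * h4 + (1) * h5 + (1) * h7 + (1) * h9 + (-1) * h10
      + (1) * h12 + (-1) * h13 + (-1) * h15 + (1) * h16 + (1) * h18 + (-1) * h19 + (-1) * h22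
      + (1) * h23 + (1) * h25 + (-1) * h26 + (1) * h27 + (-1) * h28 + (-1) * h30 + (1) * h32
      + (-1) * h37 + (-1) * h39 + (1) * h40 + (1) * h42 + (-1) * h44 + (-1) * h45 + (1) * h47
      + (-1) * h48 + (1) * h49 + (1) * h52 + (-1) * h53 + (1) * h57 + (-1) * h59
  · change c 3 17 = (0 + c 0 17) - (0 + c 0 7 - c 3 7)
    linear_combination 0 * h0
      + (1) * h6 + (-1) * h36
  · change c 3 18 = (0 + c 0 18) - (0 + c 0 7 - c 3 7)
    linear_combination 0 * h0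
      + (1) * h7 + (-1) * h37
  · change c 3 19 = (0 + c 0 19) - (0 + c 0 7 - c 3 7)
    linear_combination 0 * h0
      + (-1) * h0 + (1) * h1 + (-1) * h3 + (1) * h5 + (1) * h8 + (1) * h9 + (-1) * h11
      + (1) * h12 + (-1) * h13 + (-1) * h15 + (1) * h17 + (1) * h18 + (-1) * h20 + (1) * h24
      + (-1) * h26 + (1) * h27 + (-1) * h29 + (-1) * h30 + (1) * h32 + (-1) * h33 + (1) * h35
      + (-1) * h38 + (-1) * h39 + (1) * h41 + (1) * h42 + (-1) * h44 + (-1) * h45 + (1) * h46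
      + (-1) * h48 + (1) * h50 + (1) * h54 + (-1) * h56 + (1) * h57 + (-1) * h58
  · change c 3 20 = (0 + c 0 20) - (0 + c 0 7 - c 3 7)
    linear_combination 0 * h0
      + (1) * h8 + (-1) * h38
  · change c 4 8 = (0 + c 0 8) - (0 + c 0 8 - c 4 8)
    ring
  · change c 4 11 = (0 + c 0 17 - c 11 17) - (0 + c 0 8 - c 4 8)
    linear_combination 0 * h0
      + (-1) * h1 + (1) * h2 + (1) * h3 + (-1) * h4 + (1) * h7 + (-1) * h8 + (1) * h11
      + (1) * h13 + (-1) * h14 + (1) * h16 + (-1) * h17 + (-1) * h18 + (1) * h20 + (1) * h21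
      + (-1) * h22 + (-1) * h24 + (1) * h25 + (-1) * h28 + (1) * h29 + (1) * h33 + (-1) * h35
      + (-1) * h37 + (1) * h38 + (1) * h39 + (-1) * h41 + (-1) * h46 + (1) * h47 + (-1) * h50
      + (1) * h52 + (-1) * h54 + (1) * h56 + (1) * h58 + (-1) * h59
  · change c 4 13 = (0 + c 0 16 - c 13 16) - (0 + c 0 8 - c 4 8)
    linear_combination 0 * h0
      + (-1) * h0 + (1) * h2 + (1) * h3 + (-1) * h4 + (-1) * h6 + (1) * h7 + (1) * h9
      + (1) * h12 + (-1) * h14 + (-1) * h15 + (1) * h16 + (1) * h21 + (-1) * h22 + (-1) * h24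
      + (1) * h25 + (1) * h27 + (-1) * h28 + (-1) * h30 + (1) * h31 + (1) * h33 + (-1) * h34
      + (1) * h36 + (-1) * h37 + (1) * h42 + (-1) * h43 + (-1) * h45 + (1) * h47 + (-1) * h48
      + (-1) * h51 + (1) * h52 + (1) * h55 + (1) * h57 + (-1) * h59
  · change c 4 14 = (0 + c 0 15 - c 14 15) - (0 + c 0 8 - c 4 8)
    linear_combination 0 * h0
      + (1) * h9 + (-1) * h48 + (1) * h57
  · change c 4 15 = (0 + c 0 15) - (0 + c 0 8 - c 4 8)
    linear_combination 0 * h0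
      + (1) * h9 + (-1) * h48
  · change c 4 16 = (0 + c 0 16) - (0 + c 0 8 - c 4 8)
    linear_combination 0 * h0
      + (-1) * h0 + (1) * h2 + (1) * h3 + (-1) * h4 + (-1) * h6 + (1) * h7 + (1) * h9
      + (1) * h12 + (-1) * h14 + (-1) * h15 + (1) * h16 + (1) * h21 + (-1) * h22 + (-1) * h24
      + (1) * h25 + (1) * h27 + (-1) * h28 + (-1) * h30 + (1) * h31 + (1) * h33 + (-1) * h34
      + (1) * h36 + (-1) * h37 + (1) * h42 + (-1) * h43 + (-1) * h45 + (1) * h47 + (-1) * h48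
      + (-1) * h51 + (1) * h52 + (-1) * h54 + (1) * h55 + (1) * h57 + (-1) * h59
  · change c 4 17 = (0 + c 0 17) - (0 + c 0 8 - c 4 8)
    linear_combination 0 * h0
      + (-1) * h1 + (1) * h2 + (1) * h3 + (-1) * h4 + (1) * h7 + (-1) * h8 + (1) * h11
      + (1) * h13 + (-1) * h14 + (1) * h16 + (-1) * h17 + (-1) * h18 + (1) * h20 + (1) * h21
      + (-1) * h22 + (-1) * h24 + (1) * h25 + (-1) * h28 + (1) * h29 + (1) * h33 + (-1) * h35
      + (-1) * h37 + (1) * h38 + (1) * h39 + (-1) * h41 + (-1) * h46 + (1) * h47 + (-1) * h50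
      + (-1) * h51 + (1) * h52 + (-1) * h54 + (1) * h56 + (1) * h58 + (-1) * h59
  · change c 4 18 = (0 + c 0 18) - (0 + c 0 8 - c 4 8)
    linear_combination 0 * h0
      + (-1) * h1 + (1) * h2 + (1) * h3 + (-1) * h5 + (-1) * h6 + (1) * h7 + (1) * h10
      + (1) * h13 + (-1) * h14 + (-1) * h18 + (1) * h19 + (1) * h21 + (-1) * h23 + (-1) * h24
      + (1) * h26 + (1) * h31 + (-1) * h32 + (1) * h33 + (-1) * h34 + (1) * h36 + (-1) * h37
      + (1) * h39 + (-1) * h40 + (-1) * h43 + (1) * h44 + (-1) * h46 + (1) * h47 + (-1) * h49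
      + (-1) * h51 + (1) * h53 + (-1) * h54 + (1) * h55 + (1) * h58 + (-1) * h59
  · change c 4 19 = (0 + c 0 19) - (0 + c 0 8 - c 4 8)
    linear_combination 0 * h0
      + (1) * h10 + (-1) * h49
  · change c 4 20 = (0 + c 0 20) - (0 + c 0 8 - c 4 8)
    linear_combination 0 * h0
      + (1) * h11 + (-1) * h50
  · change c 5 15 = (0 + c 0 15) - (0 + c 0 5)
    linear_combination 0 * h0
      + (1) * h0
  · change c 5 16 = (0 + c 0 16) - (0 + c 0 5)
    linear_combination 0 * h0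
      + (1) * h1
  · change c 5 17 = (0 + c 0 17) - (0 + c 0 5)
    linear_combination 0 * h0
      + (1) * h2
  · change c 6 16 = (0 + c 0 16) - (0 + c 0 6)
    linear_combination 0 * h0
      + (1) * h3
  · change c 6 18 = (0 + c 0 18) - (0 + c 0 6)
    linear_combination 0 * h0
      + (1) * h4
  · change c 6 19 = (0 + c 0 19) - (0 + c 0 6)
    linear_combination 0 * h0
      + (1) * h5
  · change c 7 17 = (0 + c 0 17) - (0 + c 0 7)
    linear_combination 0 * h0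
      + (1) * h6
  · change c 7 18 = (0 + c 0 18) - (0 + c 0 7)
    linear_combination 0 * h0
      + (1) * h7
  · change c 7 20 = (0 + c 0 20) - (0 + c 0 7)
    linear_combination 0 * h0
      + (1) * h8
  · change c 8 15 = (0 + c 0 15) - (0 + c 0 8)
    linear_combination 0 * h0
      + (1) * h9
  · change c 8 19 = (0 + c 0 19) - (0 + c 0 8)
    linear_combination 0 * h0
      + (1) * h10
  · change c 8 20 = (0 + c 0 20) - (0 + c 0 8)
    linear_combination 0 * h0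
      + (1) * h11
  · change c 9 15 = (0 + c 0 15) - (0 + c 0 15 - c 9 15)
    ring
  · change c 9 18 = (0 + c 0 18) - (0 + c 0 15 - c 9 15)
    linear_combination 0 * h0
      + (-1) * h0 + (1) * h2 + (1) * h4 + (-1) * h5 + (-1) * h6 + (1) * h8 + (1) * h10
      + (-1) * h11 + (1) * h12 + (-1) * h14 + (-1) * h15 + (1) * h17 + (1) * h19 + (-1) * h20
      + (1) * h21 + (-1) * h23 + (-1) * h25 + (1) * h26 + (1) * h28 + (-1) * h29 + (1) * h31
      + (-1) * h32 + (-1) * h34 + (1) * h35 + (1) * h36 + (-1) * h38 + (-1) * h40 + (1) * h41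
      + (-1) * h43 + (1) * h44 + (-1) * h49 + (1) * h50 + (-1) * h51 + (1) * h53 + (1) * h55
      + (-1) * h56
  · change c 9 20 = (0 + c 0 20) - (0 + c 0 15 - c 9 15)
    linear_combination 0 * h0
      + (1) * h4 + (-1) * h5 + (-1) * h7 + (1) * h8 + (-1) * h9 + (1) * h10 + (-1) * h16
      + (1) * h17 + (1) * h19 + (-1) * h20 + (1) * h22 + (-1) * h23 + (-1) * h25 + (1) * h26
      + (-1) * h27 + (1) * h28 + (1) * h30 + (-1) * h32 + (1) * h37 + (-1) * h38 + (-1) * h40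
      + (1) * h41 + (-1) * h42 + (1) * h44 + (1) * h45 + (-1) * h47 + (1) * h48 + (-1) * h49
      + (-1) * h52 + (1) * h53 + (-1) * h57 + (1) * h59
  · change c 10 16 = (0 + c 0 16) - (0 + c 0 16 - c 10 16)
    ring
  · change c 10 19 = (0 + c 0 19) - (0 + c 0 16 - c 10 16)
    linear_combination 0 * h0
      + (-1) * h3 + (1) * h4 + (-1) * h7 + (1) * h8 + (1) * h10 + (-1) * h11 + (-1) * h16
      + (1) * h17 + (1) * h19 + (-1) * h20 + (1) * h22 + (-1) * h23 + (1) * h24 + (-1) * h25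
      + (1) * h28 + (-1) * h29 + (-1) * h33 + (1) * h35 + (1) * h37 + (-1) * h38 + (-1) * h39
      + (1) * h41 + (1) * h46 + (-1) * h47 + (-1) * h49 + (1) * h50 + (-1) * h52 + (1) * h53
      + (1) * h54 + (-1) * h56 + (-1) * h58 + (1) * h59
  · change c 10 20 = (0 + c 0 20) - (0 + c 0 16 - c 10 16)
    linear_combination 0 * h0
      + (1) * h0 + (-1) * h1 + (1) * h4 + (-1) * h5 + (-1) * h7 + (1) * h8 + (-1) * h9
      + (1) * h10 + (-1) * h12 + (1) * h13 + (1) * h15 + (-1) * h16 + (-1) * h18 + (1) * h19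
      + (1) * h22 + (-1) * h23 + (-1) * h25 + (1) * h26 + (-1) * h27 + (1) * h28 + (1) * h30
      + (-1) * h32 + (1) * h37 + (-1) * h38 + (-1) * h40 + (1) * h41 + (-1) * h42 + (1) * h44
      + (1) * h45 + (-1) * h47 + (1) * h48 + (-1) * h49 + (-1) * h52 + (1) * h53 + (-1) * h57
      + (1) * h59
  · change c 11 17 = (0 + c 0 17) - (0 + c 0 17 - c 11 17)
    ring
  · change c 11 18 = (0 + c 0 18) - (0 + c 0 17 - c 11 17)
    linear_combination 0 * h0
      + (1) * h4 + (-1) * h5 + (-1) * h6 + (1) * h8 + (1) * h10 + (-1) * h11 + (-1) * h16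
      + (1) * h17 + (1) * h19 + (-1) * h20 + (1) * h22 + (-1) * h23 + (-1) * h25 + (1) * h26
      + (1) * h28 + (-1) * h29 + (1) * h31 + (-1) * h32 + (-1) * h34 + (1) * h35 + (1) * h36
      + (-1) * h38 + (-1) * h40 + (1) * h41 + (-1) * h43 + (1) * h44 + (-1) * h49 + (1) * h50
      + (-1) * h51 + (1) * h53 + (1) * h55 + (-1) * h56
  · change c 11 19 = (0 + c 0 19) - (0 + c 0 17 - c 11 17)
    linear_combination 0 * h0
      + (1) * h1 + (-1) * h2 + (-1) * h3 + (1) * h4 + (-1) * h7 + (1) * h8 + (1) * h10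
      + (-1) * h11 + (-1) * h13 + (1) * h14 + (-1) * h16 + (1) * h17 + (1) * h18 + (-1) * h20
      + (-1) * h21 + (1) * h22 + (1) * h24 + (-1) * h25 + (1) * h28 + (-1) * h29 + (-1) * h33
      + (1) * h35 + (1) * h37 + (-1) * h38 + (-1) * h39 + (1) * h41 + (1) * h46 + (-1) * h47
      + (-1) * h49 + (1) * h50 + (-1) * h52 + (1) * h53 + (1) * h54 + (-1) * h56 + (-1) * h58
      + (1) * h59
  · change c 12 15 = (0 + c 0 15) - (0 + c 0 15 - c 12 15)
    ring
  · change c 12 17 = (0 + c 0 17) - (0 + c 0 15 - c 12 15)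
    linear_combination 0 * h0
      + (-1) * h1 + (1) * h2 + (1) * h3 + (-1) * h5 + (-1) * h9 + (1) * h10 + (1) * h13
      + (-1) * h14 + (-1) * h18 + (1) * h19 + (1) * h21 + (-1) * h23 + (-1) * h24 + (1) * h26
      + (1) * h31 + (-1) * h32 + (1) * h33 + (-1) * h34 + (1) * h39 + (-1) * h40 + (-1) * h42
      + (1) * h44 + (1) * h45 + (-1) * h46 + (1) * h48 + (-1) * h49 + (-1) * h51 + (1) * h53
      + (-1) * h54 + (1) * h55 + (-1) * h57 + (1) * h58
  · change c 12 19 = (0 + c 0 19) - (0 + c 0 15 - c 12 15)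
    linear_combination 0 * h0
      + (-1) * h0 + (1) * h2 + (-1) * h6 + (1) * h8 + (1) * h10 + (-1) * h11 + (1) * h12
      + (-1) * h14 + (-1) * h15 + (1) * h17 + (1) * h19 + (-1) * h20 + (1) * h21 + (-1) * h23
      + (1) * h27 + (-1) * h29 + (-1) * h30 + (1) * h31 + (-1) * h34 + (1) * h35 + (1) * h36
      + (-1) * h38 + (-1) * h40 + (1) * h41 + (-1) * h43 + (1) * h44 + (-1) * h49 + (1) * h50
      + (-1) * h51 + (1) * h53 + (1) * h55 + (-1) * h56
  · change c 13 16 = (0 + c 0 16) - (0 + c 0 16 - c 13 16)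
    ring
  · change c 13 17 = (0 + c 0 17) - (0 + c 0 16 - c 13 16)
    linear_combination 0 * h0
      + (1) * h0 + (-1) * h1 + (1) * h6 + (-1) * h8 + (-1) * h9 + (1) * h11 + (-1) * h12
      + (1) * h13 + (1) * h15 + (-1) * h17 + (-1) * h18 + (1) * h20 + (-1) * h27 + (1) * h29
      + (1) * h30 + (-1) * h31 + (1) * h34 + (-1) * h35 + (-1) * h36 + (1) * h38 + (1) * h39
      + (-1) * h41 + (-1) * h42 + (1) * h43 + (1) * h45 + (-1) * h46 + (1) * h48 + (-1) * h50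
      + (-1) * h54 + (1) * h56 + (-1) * h57 + (1) * h58
  · change c 13 20 = (0 + c 0 20) - (0 + c 0 16 - c 13 16)
    linear_combination 0 * h0
      + (1) * h0 + (-1) * h2 + (-1) * h3 + (1) * h4 + (1) * h6 + (-1) * h7 + (-1) * h9
      + (1) * h11 + (-1) * h12 + (1) * h14 + (1) * h15 + (-1) * h16 + (-1) * h21 + (1) * h22
      + (1) * h24 + (-1) * h25 + (-1) * h27 + (1) * h28 + (1) * h30 + (-1) * h31 + (-1) * h33
      + (1) * h34 + (-1) * h36 + (1) * h37 + (-1) * h42 + (1) * h43 + (1) * h45 + (-1) * h47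
      + (1) * h48 + (-1) * h50 + (1) * h51 + (-1) * h52 + (-1) * h55 + (1) * h56 + (-1) * h57
      + (1) * h59
  · change c 14 15 = (0 + c 0 15) - (0 + c 0 15 - c 14 15)
    ring
  · change c 14 16 = (0 + c 0 16) - (0 + c 0 15 - c 14 15)
    linear_combination 0 * h0
      + (-1) * h0 + (1) * h2 + (1) * h3 + (-1) * h4 + (-1) * h6 + (1) * h7 + (1) * h12
      + (-1) * h14 + (-1) * h15 + (1) * h16 + (1) * h21 + (-1) * h22 + (-1) * h24 + (1) * h25
      + (1) * h27 + (-1) * h28 + (-1) * h30 + (1) * h31 + (1) * h33 + (-1) * h34 + (1) * h36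
      + (-1) * h37 + (1) * h42 + (-1) * h43 + (-1) * h45 + (1) * h47 + (-1) * h51 + (1) * h52
      + (-1) * h54 + (1) * h55 + (1) * h58 + (-1) * h59
  · change c 14 18 = (0 + c 0 18) - (0 + c 0 15 - c 14 15)
    linear_combination 0 * h0
      + (-1) * h1 + (1) * h2 + (1) * h3 + (-1) * h5 + (-1) * h6 + (1) * h7 + (-1) * h9
      + (1) * h10 + (1) * h13 + (-1) * h14 + (-1) * h18 + (1) * h19 + (1) * h21 + (-1) * h23
      + (-1) * h24 + (1) * h26 + (1) * h31 + (-1) * h32 + (1) * h33 + (-1) * h34 + (1) * h36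
      + (-1) * h37 + (1) * h39 + (-1) * h40 + (-1) * h43 + (1) * h44 + (-1) * h46 + (1) * h47
      + (1) * h48 + (-1) * h49 + (-1) * h51 + (1) * h53 + (-1) * h54 + (1) * h55 + (-1) * h57
      + (1) * h58

end Vale.Agent.P173
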