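import Vale.Agent.P173.DegB
import Vale.Agent.P173.Core
import Vale.Agent.P173.Reduce
import Vale.Agent.P173.ScalG
import Vale.Agent.P173.Exact
import Vale.Agent.P173.Split3
import Vale.Agent.P173.Cd
import Vale.Agent.P173.LData
import Vale.Agent.P173.CW
import Vale.Agent.P173.CovCell
import Vale.Agent.P173.WordsA
import Vale.Agent.P173.WordsB
import Vale.Agent.P173.WordsC

/-! Assembly. -/

namespace Vale.Agent.P173

open scoped Matrix.Norms.L2Operator

universe u v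

theorem not_classifying {H : Type} [Group H] (hs : Scal H (Matrix (Fin 2) (Fin 2) ℂ)) :
    ¬ HasClassifyingSpace.{u, v} H 2 := by
  rintro ⟨Y, _, _, _, hd, -, ⟨y, ⟨e⟩⟩, T, _, p, hp, hsurj, hT⟩
  obtain ⟨V, E, F, pt, ed, fc, src, tgt, hY⟩ := exists_cell2 Y hd
  obtain ⟨V', E', F', pt', ed', fc', src', tgt', _, _, _, _, hC, hA⟩ :=
    exists_cellAct hY hp hsurj y e
  choose bd hbd using hC.exists_isBd
  refine reduce (core (deg 2)) hs (src := src') (tgt := tgt') (bd := bd)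
    ⟨fun h e => hC.pt_inj ?_, fun h e => hC.pt_inj ?_, fun h φ => ?_, hA.free, hC.nonempty,
      hC.conn, fun φ => hC.isBd_cov (hbd φ), fun G _ a ha => hC.sc hbd a ha, hC.h2 hbd⟩
  · rw [hA.pt_smul, ← hC.ed_src _ _ le_rfl, ← hC.ed_src _ _ le_rfl, hA.ed_smul]
  · rw [hA.pt_smul, ← hC.ed_tgt _ _ le_rfl, ← hC.ed_tgt _ _ le_rfl, hA.ed_smul]
  · exact hC.isBd_unique (hbd _) (hC.isBd_smul hA (hbd φ) h)

theorem main : ∃ (Γ : Type) (_ : Group Γ), cd Γ = 2 ∧ ¬ HasClassifyingSpace.{u, v} Γ 2 := by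
  obtain ⟨G, h1, ⟨a, ha⟩, h2, h3⟩ := exists_graph
  exact ⟨BB G, inferInstance, cd_eq (exa G) (spl3 h2) h3, not_classifying (scal h1 ha)⟩

end Vale.Agent.P173
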